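/-
P261, leaf (C): `MvPowerSeries (Fin r) k` is the limit of the truncations `EE k r j`.
Author: helper355.
-/
import Vale.Agent.P261.H468.Spec

open Vale.Agent.P251.F Vale.Agent.P251 Vale.Agent.P217

namespace Vale.Agent.P261

namespace H355

variable {k : Type} [Field k] {r : ℕ}

theorem mk_eq_iff {j : ℕ} (x y : MvPolynomial (Fin r) k) :
    EE.mk k r j x = EE.mk k r j y ↔
      ∀ e : Fin r →₀ ℕ, e.degree < j + 1 → x.coeff e = y.coeff e := by
  rw [Ideal.Quotient.eq, MvPolynomial.mem_pow_idealOfVars_iff']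
  refine forall_congr' fun e => imp_congr_right fun _ => ?_
  rw [MvPolynomial.coeff_sub, sub_eq_zero]

theorem tr_apply (j : ℕ) (a : MvPowerSeries (Fin r) k) :
    tr k r j a = EE.mk k r j (MvPowerSeries.truncTotal (j + 1) a) := rfl

theorem tr_eq_mk_iff {j : ℕ} (a : MvPowerSeries (Fin r) k) (y : MvPolynomial (Fin r) k) :
    tr k r j a = EE.mk k r j y ↔
      ∀ e : Fin r →₀ ℕ, e.degree < j + 1 → MvPowerSeries.coeff e a = y.coeff e := by
  rw [tr_apply, mk_eq_iff]
  refine forall_congr' fun e => ?_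
  constructor
  · intro h he
    rw [← h he, MvPowerSeries.coeff_truncTotal _ he]
  · intro h he
    rw [← h he, MvPowerSeries.coeff_truncTotal _ he]

theorem tr_eq_iff {j : ℕ} (a b : MvPowerSeries (Fin r) k) :
    tr k r j a = tr k r j b ↔
      ∀ e : Fin r →₀ ℕ, e.degree < j + 1 →
        MvPowerSeries.coeff e a = MvPowerSeries.coeff e b := by
  rw [tr_apply j b, tr_eq_mk_iff]
  refine forall_congr' fun e => ?_
  constructor
  · intro h he
    rw [h he, MvPowerSeries.coeff_truncTotal _ he]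
  · intro h he
    rw [h he, MvPowerSeries.coeff_truncTotal _ he]

end H355

open H355

theorem tr_ext {k : Type} [Field k] {r : ℕ} {a b : MvPowerSeries (Fin r) k}
    (hab : ∀ j, tr k r j a = tr k r j b) : a = b := by
  ext e
  exact (tr_eq_iff a b).1 (hab e.degree) e (Nat.lt_succ_self _)

theorem red_tr {k : Type} [Field k] {r j j' : ℕ} (hj : j ≤ j') (a : MvPowerSeries (Fin r) k) :
    EE.red k r hj (tr k r j' a) = tr k r j a := by
  rw [tr_apply, EE.red_mk, eq_comm, tr_eq_mk_iff]
  intro e he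
  rw [MvPowerSeries.coeff_truncTotal _ (by omega)]

theorem exists_lim {k : Type} [Field k] {r : ℕ} (a : ∀ j, EE k r j)
    (ha : ∀ j, EE.red k r (Nat.le_succ j) (a (j + 1)) = a j) :
    ∃ b : MvPowerSeries (Fin r) k, ∀ j, tr k r j b = a j := by
  have hx : ∀ j, ∃ x : MvPolynomial (Fin r) k, EE.mk k r j x = a j := fun j =>
    Ideal.Quotient.mk_surjective (a j)
  choose x hx using hx
  have hstep : ∀ j, ∀ e : Fin r →₀ ℕ, e.degree < j + 1 → (x (j + 1)).coeff e = (x j).coeff e := by
    intro j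
    rw [← mk_eq_iff (j := j), hx j, ← ha j, ← hx (j + 1), EE.red_mk]
  have hlong : ∀ i d : ℕ, ∀ e : Fin r →₀ ℕ, e.degree < i + 1 →
      (x (i + d)).coeff e = (x i).coeff e := by
    intro i d
    induction d with
    | zero => intro e _; rfl
    | succ d ih =>
      intro e he
      rw [← add_assoc, hstep (i + d) e (by omega), ih e he]
  obtain ⟨b, hb⟩ : ∃ b : MvPowerSeries (Fin r) k,
      ∀ e, MvPowerSeries.coeff e b = (x e.degree).coeff e :=
    ⟨(fun e => (x e.degree).coeff e : (Fin r →₀ ℕ) → k), fun _ => rfl⟩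
  refine ⟨b, fun j => ?_⟩
  rw [← hx j, tr_eq_mk_iff]
  intro e he
  have h := hlong e.degree (j - e.degree) e (Nat.lt_succ_self _)
  rw [Nat.add_sub_cancel' (Nat.lt_succ_iff.1 he)] at h
  rw [hb, h]

theorem exists_limHom {k : Type} [Field k] {r : ℕ} {S : Type} [CommRing S]
    (f : ∀ j, S →+* EE k r j)
    (hf : ∀ j, (EE.red k r (Nat.le_succ j) : EE k r (j + 1) →+* EE k r j).comp (f (j + 1)) = f j) :
    ∃ F : S →+* MvPowerSeries (Fin r) k, ∀ j, (tr k r j).comp F = f j := by
  have hs : ∀ s : S, ∃ b : MvPowerSeries (Fin r) k, ∀ j, tr k r j b = f j s := fun s =>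
    exists_lim (fun j => f j s) fun j => RingHom.congr_fun (hf j) s
  choose F hF using hs
  refine ⟨{ toFun := F, map_one' := ?_, map_mul' := ?_, map_zero' := ?_, map_add' := ?_ },
    fun j => RingHom.ext fun s => hF s j⟩
  · exact tr_ext fun j => by rw [hF, map_one, map_one]
  · exact fun s t => tr_ext fun j => by rw [hF, map_mul, map_mul, hF, hF]
  · exact tr_ext fun j => by rw [hF, map_zero, map_zero]
  · exact fun s t => tr_ext fun j => by rw [hF, map_add, map_add, hF, hF]

theorem π_tr {k : Type} [Field k] {r j : ℕ} (a : MvPowerSeries (Fin r) k) :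
    EE.π k r j (tr k r j a) = MvPowerSeries.constantCoeff a := by
  rw [tr_apply, EE.π_mk, MvPowerSeries.constantCoeff_truncTotal_eq_ite,
    if_pos (Nat.succ_pos j)]

theorem tr_coe {k : Type} [Field k] {r j : ℕ} (a : MvPolynomial (Fin r) k) :
    tr k r j (a : MvPowerSeries (Fin r) k) = EE.mk k r j a := by
  rw [tr_eq_mk_iff]
  intro e _
  rw [MvPolynomial.coeff_coe]

end Vale.Agent.P261
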